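import Mathlib
import Vale.Agent.P260.Defs
import Vale.Agent.P260.H573.FolSub
import Vale.Agent.P260.H493.Defs

/-!
# P260, M8 (rank argument): Følner sets in the kernel of a character
-/

namespace Vale.Agent.P260.H970

open H493

theorem folner_right {L : Type} [Group L] (hF : Folner L) (Λ : Finset L) (N : ℕ) :
    ∃ (E Qp Qm : Finset L) (δ : ℕ), E.Nonempty ∧ N * δ ≤ E.card ∧
      Qp.card ≤ E.card + δ ∧ E.card ≤ Qm.card + δ ∧
      (∀ x ∈ E, ∀ l ∈ Λ, x * l ∈ Qp) ∧ (∀ x ∈ Qm, x ∈ E ∧ ∀ l ∈ Λ, x * l ∈ E) := by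
  classical
  obtain ⟨F, hFne, hF1⟩ := hF (Λ.image fun l => l⁻¹) (1 / ((N + 1) * (Λ.card + 1))) (by positivity)
  obtain ⟨E, hE⟩ : ∃ E : Finset L, E = F.image fun x => x⁻¹ := ⟨_, rfl⟩
  have hmem : ∀ x, x ∈ E ↔ x⁻¹ ∈ F := by
    intro x
    rw [hE, Finset.mem_image]
    constructor
    · rintro ⟨y, hy, rfl⟩
      rwa [inv_inv]
    · intro h
      exact ⟨x⁻¹, h, inv_inv x⟩
  have hcard : E.card = F.card := by
    rw [hE]
    exact Finset.card_image_of_injective _ inv_injective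
  have hbad : ∀ l ∈ Λ, ((E.filter fun x => x * l ∉ E).card : ℝ) ≤
      1 / ((N + 1) * (Λ.card + 1)) * E.card := by
    intro l hl
    rw [hcard]
    refine le_trans ?_ (hF1 l⁻¹ (Finset.mem_image_of_mem _ hl))
    rw [Nat.cast_le]
    refine Finset.card_le_card_of_injOn (fun x => (x * l)⁻¹) ?_ ?_
    · intro x hx
      rw [Finset.mem_coe, Finset.mem_filter] at hx
      rw [Finset.mem_coe, Finset.mem_sdiff, Finset.mem_image]
      refine ⟨⟨x⁻¹, (hmem x).1 hx.1, (mul_inv_rev x l).symm⟩, ?_⟩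
      intro h
      exact hx.2 ((hmem _).2 h)
    · intro x _ y _ hxy
      exact mul_right_cancel (inv_injective hxy)
  refine ⟨E, (E ×ˢ Λ).image fun p => p.1 * p.2, E.filter fun x => ∀ l ∈ Λ, x * l ∈ E,
    ∑ l ∈ Λ, (E.filter fun x => x * l ∉ E).card, ?_, ?_, ?_, ?_, ?_, ?_⟩
  · rw [hE]
    exact hFne.image _
  · rw [← @Nat.cast_le ℝ, Nat.cast_mul, Nat.cast_sum]
    calc (N : ℝ) * ∑ l ∈ Λ, ((E.filter fun x => x * l ∉ E).card : ℝ)
        ≤ N * ∑ l ∈ Λ, (1 / ((N + 1) * (Λ.card + 1)) * E.card : ℝ) := by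
          apply mul_le_mul_of_nonneg_left (Finset.sum_le_sum hbad) (Nat.cast_nonneg _)
      _ = (N / (N + 1)) * (Λ.card / (Λ.card + 1)) * E.card := by
          rw [Finset.sum_const, nsmul_eq_mul]
          field_simp
      _ ≤ 1 * 1 * E.card := by
          have h1 : (N : ℝ) / (N + 1) ≤ 1 := by
            rw [div_le_one (by positivity)]; linarith
          have h2 : (Λ.card : ℝ) / (Λ.card + 1) ≤ 1 := by
            rw [div_le_one (by positivity)]; linarith
          gcongr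
      _ = _ := by ring
  · have hsub : ((E ×ˢ Λ).image fun p => p.1 * p.2) ⊆
        E ∪ Λ.biUnion fun l => (E.filter fun x => x * l ∉ E).image fun x => x * l := by
      intro y hy
      rw [Finset.mem_image] at hy
      obtain ⟨⟨x, l⟩, hp, rfl⟩ := hy
      rw [Finset.mem_product] at hp
      rw [Finset.mem_union]
      by_cases h : x * l ∈ E
      · exact Or.inl h
      · right
        rw [Finset.mem_biUnion]
        exact ⟨l, hp.2, Finset.mem_image_of_mem (fun x => x * l) (Finset.mem_filter.2 ⟨hp.1, h⟩)⟩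
    refine (Finset.card_le_card hsub).trans ((Finset.card_union_le _ _).trans ?_)
    apply Nat.add_le_add_left
    refine Finset.card_biUnion_le.trans (Finset.sum_le_sum fun l _ => Finset.card_image_le)
  · have hsub : E ⊆ (E.filter fun x => ∀ l ∈ Λ, x * l ∈ E) ∪
        Λ.biUnion fun l => E.filter fun x => x * l ∉ E := by
      intro x hx
      rw [Finset.mem_union]
      by_cases h : ∀ l ∈ Λ, x * l ∈ E
      · exact Or.inl (Finset.mem_filter.2 ⟨hx, h⟩)
      · push Not at h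
        obtain ⟨l, hl, hxl⟩ := h
        right
        rw [Finset.mem_biUnion]
        exact ⟨l, hl, Finset.mem_filter.2 ⟨hx, hxl⟩⟩
    refine (Finset.card_le_card hsub).trans ((Finset.card_union_le _ _).trans ?_)
    apply Nat.add_le_add_left
    exact Finset.card_biUnion_le
  · intro x hx l hl
    exact Finset.mem_image.2 ⟨(x, l), Finset.mk_mem_product hx hl, rfl⟩
  · intro x hx
    exact Finset.mem_filter.1 hx

/-- Right Følner sets in the kernel of `ψ`. -/
theorem folner_ker {Γ : Type} [Group Γ] (ψ : Γ →* Multiplicative ℤ) (hF : Folner Γ)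
    (Λ : Finset Γ) (hΛ : ∀ l ∈ Λ, deg ψ l = 0) (N : ℕ) :
    ∃ (E Qp Qm : Finset Γ) (δ : ℕ), E.Nonempty ∧ N * δ ≤ E.card ∧
      Qp.card ≤ E.card + δ ∧ E.card ≤ Qm.card + δ ∧
      (∀ x ∈ E, ∀ l ∈ Λ, x * l ∈ Qp) ∧ (∀ x ∈ Qm, x ∈ E ∧ ∀ l ∈ Λ, x * l ∈ E) ∧
      (∀ x ∈ E, deg ψ x = 0) ∧ (∀ x ∈ Qp, deg ψ x = 0) := by
  classical
  have hL : Folner ψ.ker := F.Folner.subgroup hF ψ.ker
  have hker : ∀ g : Γ, deg ψ g = 0 → g ∈ ψ.ker := by
    intro g hg
    rw [MonoidHom.mem_ker]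
    exact Multiplicative.toAdd.injective hg
  have hker' : ∀ g : ψ.ker, deg ψ (g : Γ) = 0 := by
    intro g
    have h := g.2
    rw [MonoidHom.mem_ker] at h
    rw [deg, h]
    rfl
  obtain ⟨E, Qp, Qm, δ, h1, h2, h3, h4, h5, h6⟩ := folner_right hL (Λ.subtype (· ∈ ψ.ker)) N
  have hinj : Function.Injective (fun x : ψ.ker => (x : Γ)) := Subtype.val_injective
  have hcard : ∀ X : Finset ψ.ker, (X.image fun x : ψ.ker => (x : Γ)).card = X.card :=
    fun X => Finset.card_image_of_injective _ hinj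
  refine ⟨E.image fun x : ψ.ker => (x : Γ), Qp.image fun x : ψ.ker => (x : Γ),
    Qm.image fun x : ψ.ker => (x : Γ), δ, h1.image _, ?_, ?_, ?_, ?_, ?_, ?_, ?_⟩
  · rwa [hcard]
  · rwa [hcard, hcard]
  · rwa [hcard, hcard]
  · intro y hy l hl
    rw [Finset.mem_image] at hy
    obtain ⟨x, hx, rfl⟩ := hy
    have hl0 := hker l (hΛ l hl)
    exact Finset.mem_image.2 ⟨x * ⟨l, hl0⟩, h5 x hx ⟨l, hl0⟩ (Finset.mem_subtype.2 hl), rfl⟩
  · intro y hy
    rw [Finset.mem_image] at hy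
    obtain ⟨x, hx, rfl⟩ := hy
    refine ⟨Finset.mem_image_of_mem _ (h6 x hx).1, ?_⟩
    intro l hl
    have hl0 := hker l (hΛ l hl)
    exact Finset.mem_image.2 ⟨x * ⟨l, hl0⟩, (h6 x hx).2 ⟨l, hl0⟩ (Finset.mem_subtype.2 hl), rfl⟩
  · intro x hx
    rw [Finset.mem_image] at hx
    obtain ⟨y, _, rfl⟩ := hx
    exact hker' y
  · intro x hx
    rw [Finset.mem_image] at hx
    obtain ⟨y, _, rfl⟩ := hx
    exact hker' y

end Vale.Agent.P260.H970
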