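import Mathlib

/-!
# P260, M8 (rank argument): linear algebra
-/

namespace Vale.Agent.P260.H970

open Module

section LA

variable {k P Q R : Type} [Field k] [AddCommGroup P] [Module k P] [AddCommGroup Q] [Module k Q]
  [AddCommGroup R] [Module k R]

theorem finrank_map_add (G : P →ₗ[k] Q) (U : Submodule k P) [FiniteDimensional k U] :
    finrank k (U.map G) + finrank k (U ⊓ LinearMap.ker G : Submodule k P) = finrank k U := by
  have h := (G.domRestrict U).finrank_range_add_finrank_ker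
  have h1 : LinearMap.range (G.domRestrict U) = U.map G := by
    rw [LinearMap.domRestrict, LinearMap.range_comp, Submodule.range_subtype]
  have h2 : (LinearMap.ker (G.domRestrict U)).map U.subtype = U ⊓ LinearMap.ker G := by
    rw [LinearMap.domRestrict, LinearMap.ker_comp, Submodule.map_comap_subtype]
  have h3 : finrank k (LinearMap.ker (G.domRestrict U)) =
      finrank k ((LinearMap.ker (G.domRestrict U)).map U.subtype) :=
    (LinearEquiv.finrank_eq (Submodule.equivMapOfInjective _ U.injective_subtype _))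
  rw [← h, h1, h3, h2]

theorem finrank_map_sub (G : P →ₗ[k] Q) (U₁ U₀ : Submodule k P) [FiniteDimensional k U₀]
    (h : U₁ ≤ U₀) :
    finrank k (U₀.map G) + finrank k U₁ ≤ finrank k (U₁.map G) + finrank k U₀ := by
  have : FiniteDimensional k U₁ := Submodule.finiteDimensional_of_le h
  have h0 := finrank_map_add G U₀
  have h1 := finrank_map_add G U₁
  have h2 : finrank k (U₁ ⊓ LinearMap.ker G : Submodule k P) ≤
      finrank k (U₀ ⊓ LinearMap.ker G : Submodule k P) :=
    Submodule.finrank_mono (inf_le_inf_right _ h)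
  omega

theorem finrank_inf_map (G : P →ₗ[k] Q) (U₁ U₀ : Submodule k P) (K : Submodule k Q)
    [FiniteDimensional k U₀] (h : U₁ ≤ U₀) (hK : K ≤ U₀.map G) :
    finrank k K + finrank k U₁ ≤
      finrank k (K ⊓ U₁.map G : Submodule k Q) + finrank k U₀ := by
  have : FiniteDimensional k U₁ := Submodule.finiteDimensional_of_le h
  have : FiniteDimensional k K := Submodule.finiteDimensional_of_le hK
  have h0 := finrank_map_sub G U₁ U₀ h
  have h1 := Submodule.finrank_sup_add_finrank_inf_eq K (U₁.map G)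
  have h2 : finrank k (K ⊔ U₁.map G : Submodule k Q) ≤ finrank k (U₀.map G) :=
    Submodule.finrank_mono (sup_le hK (Submodule.map_mono h))
  omega

/-- The core inequality. -/
theorem core {A B C : Type} [AddCommGroup A] [Module k A] [AddCommGroup B] [Module k B]
    [AddCommGroup C] [Module k C] (D : A →ₗ[k] B) (D' : B →ₗ[k] C) (e PJ P' cW : B →ₗ[k] B)
    (P2 : C →ₗ[k] C) (A₁ A₂ : Submodule k A) (V S : Submodule k B) (C₁ : Submodule k C)
    [FiniteDimensional k A₂] [FiniteDimensional k S] [FiniteDimensional k C₁]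
    (hA : A₁ ≤ A₂) (hVS : V ≤ S)
    (h1 : ∀ v ∈ V, P2 (D' (PJ (v - e v))) = P2 (D' v))
    (h2 : ∀ w ∈ A₁, D w ∈ V ∧ PJ (D w - e (D w)) = D w)
    (h3 : ∀ v ∈ V, D' v = 0 → ∃ w ∈ A₂, cW (D w) = v)
    (h3' : ∀ w ∈ A₁, cW (D w) = D w)
    (h4 : ∀ v ∈ V, PJ (v - e v) ∈ S)
    (h5 : ∀ v ∈ V, P' (e (PJ (v - e v))) = 0)
    (h6 : ∀ v ∈ V, P2 (D' v) = 0 → D' v ∈ C₁) :
    finrank k (V.map (P' ∘ₗ e)) + finrank k V + finrank k A₁ ≤
      finrank k S + finrank k C₁ + finrank k A₂ := by
  have : FiniteDimensional k V := Submodule.finiteDimensional_of_le hVS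
  have : FiniteDimensional k A₁ := Submodule.finiteDimensional_of_le hA
  obtain ⟨M, hM⟩ : ∃ M : Submodule k B, M = V.map (PJ ∘ₗ (LinearMap.id - e)) := ⟨_, rfl⟩
  have hMmem : ∀ v ∈ V, PJ (v - e v) ∈ M := by
    intro v hv
    rw [hM]
    exact ⟨v, hv, rfl⟩
  have : FiniteDimensional k M := by rw [hM]; infer_instance
  have e1 := finrank_map_add (P' ∘ₗ e) S
  have e2 : finrank k (V.map (P' ∘ₗ e)) ≤ finrank k (S.map (P' ∘ₗ e)) :=
    Submodule.finrank_mono (Submodule.map_mono hVS)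
  have e3 : finrank k M ≤ finrank k (S ⊓ LinearMap.ker (P' ∘ₗ e) : Submodule k B) := by
    apply Submodule.finrank_mono
    rw [hM]
    rintro _ ⟨v, hv, rfl⟩
    exact ⟨h4 v hv, h5 v hv⟩
  have e4 := finrank_map_add (P2 ∘ₗ D') M
  have e5 : M.map (P2 ∘ₗ D') = (V.map D').map P2 := by
    rw [hM, ← Submodule.map_comp, ← Submodule.map_comp]
    ext x
    constructor
    · rintro ⟨v, hv, rfl⟩
      exact ⟨v, hv, (h1 v hv).symm⟩
    · rintro ⟨v, hv, rfl⟩
      exact ⟨v, hv, h1 v hv⟩
  obtain ⟨K, hK⟩ : ∃ K : Submodule k B, K = V ⊓ LinearMap.ker D' := ⟨_, rfl⟩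
  have e6 : A₁.map D = A₁.map (cW ∘ₗ D) := by
    ext x
    constructor
    · rintro ⟨v, hv, rfl⟩
      exact ⟨v, hv, h3' v hv⟩
    · rintro ⟨v, hv, rfl⟩
      exact ⟨v, hv, (h3' v hv).symm⟩
  have e7 : finrank k (K ⊓ A₁.map D : Submodule k B) ≤
      finrank k (M ⊓ LinearMap.ker (P2 ∘ₗ D') : Submodule k B) := by
    apply Submodule.finrank_mono
    rintro _ ⟨hx, ⟨w, hw, rfl⟩⟩
    rw [hK] at hx
    refine ⟨?_, ?_⟩
    · have := hMmem (D w) hx.1
      rwa [(h2 w hw).2] at this
    · have h0 : D' (D w) = 0 := hx.2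
      change P2 (D' (D w)) = 0
      rw [h0, map_zero]
  have e8 := finrank_map_add P2 (V.map D')
  have e9 : finrank k (V.map D' ⊓ LinearMap.ker P2 : Submodule k C) ≤ finrank k C₁ := by
    apply Submodule.finrank_mono
    rintro _ ⟨⟨v, hv, rfl⟩, hx⟩
    exact h6 v hv hx
  have e10 := finrank_map_add D' V
  have e11 : finrank k K + finrank k A₁ ≤
      finrank k (K ⊓ A₁.map (cW ∘ₗ D) : Submodule k B) + finrank k A₂ := by
    apply finrank_inf_map _ _ _ _ hA
    intro v hv
    rw [hK] at hv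
    obtain ⟨w, hw, hwv⟩ := h3 v hv.1 hv.2
    exact ⟨w, hw, hwv⟩
  rw [e5] at e4
  rw [← e6] at e11
  rw [← hK] at e10
  omega

/-- Triangular families are linearly independent. -/
theorem tri {ι : Type} (d : ι → ℤ) (v : ι → P) (f : ι → P →ₗ[k] k)
    (h0 : ∀ i, f i (v i) ≠ 0) (h1 : ∀ i j, j ≠ i → d i ≤ d j → f i (v j) = 0) :
    LinearIndependent k v := by
  classical
  rw [linearIndependent_iff']
  intro s g hs
  by_contra hcon
  push Not at hcon
  obtain ⟨i₀, hi₀, hgi₀⟩ := hcon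
  obtain ⟨i, hi, hmin⟩ := Finset.exists_min_image (s.filter fun i => g i ≠ 0) d
    ⟨i₀, Finset.mem_filter.2 ⟨hi₀, hgi₀⟩⟩
  rw [Finset.mem_filter] at hi
  have h2 := congrArg (f i) hs
  rw [map_sum, map_zero, Finset.sum_eq_single i] at h2
  · rw [map_smul, smul_eq_mul] at h2
    rcases mul_eq_zero.1 h2 with h3 | h3
    · exact hi.2 h3
    · exact h0 i h3
  · intro j hj hji
    rw [map_smul, smul_eq_mul]
    by_cases hg : g j = 0
    · rw [hg, zero_mul]
    · rw [h1 i j hji (hmin j (Finset.mem_filter.2 ⟨hj, hg⟩)), mul_zero]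
  · intro h; exact absurd hi.1 h

theorem tri_card {ι : Type} [Fintype ι] (U : Submodule k P) [FiniteDimensional k U] (d : ι → ℤ)
    (v : ι → P) (f : ι → P →ₗ[k] k)
    (h0 : ∀ i, f i (v i) ≠ 0) (h1 : ∀ i j, j ≠ i → d i ≤ d j → f i (v j) = 0)
    (hU : ∀ i, v i ∈ U) : Fintype.card ι ≤ finrank k U := by
  rw [← finrank_span_eq_card (tri d v f h0 h1)]
  apply Submodule.finrank_mono
  rw [Submodule.span_le]
  rintro _ ⟨i, rfl⟩
  exact hU i

end LA

/-- Greedy choice of a separated subset. -/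
theorem greedy {L : Type} [Group L] (E T : Finset L) (h1 : (1 : L) ∈ T) :
    ∃ X ⊆ E, E.card ≤ 2 * T.card * X.card ∧
      ∀ x ∈ X, ∀ y ∈ X, x ≠ y → y⁻¹ * x ∉ T := by
  classical
  obtain ⟨X, hX, hmax⟩ := Finset.exists_max_image
    (E.powerset.filter fun X => ∀ x ∈ X, ∀ y ∈ X, x ≠ y → y⁻¹ * x ∉ T) Finset.card
    ⟨∅, by simp⟩
  rw [Finset.mem_filter, Finset.mem_powerset] at hX
  refine ⟨X, hX.1, ?_, hX.2⟩
  have hcov : E ⊆ (X ×ˢ (T ∪ T.image fun t => t⁻¹)).image fun p => p.1 * p.2 := by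
    intro y hy
    rw [Finset.mem_image]
    by_cases hyX : y ∈ X
    · exact ⟨(y, 1), Finset.mk_mem_product hyX (Finset.mem_union_left _ h1), mul_one y⟩
    by_contra hcon
    push Not at hcon
    have h2 : ∀ x ∈ X, x⁻¹ * y ∉ T := by
      intro x hx ht
      exact hcon (x, x⁻¹ * y) (Finset.mk_mem_product hx (Finset.mem_union_left _ ht))
        (by simp)
    have h3 : ∀ x ∈ X, y⁻¹ * x ∉ T := by
      intro x hx ht
      refine hcon (x, (y⁻¹ * x)⁻¹) (Finset.mk_mem_product hx (Finset.mem_union_right _ ?_))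
        (by simp)
      exact Finset.mem_image_of_mem _ ht
    have h4 : insert y X ∈ E.powerset.filter fun X => ∀ x ∈ X, ∀ y ∈ X, x ≠ y → y⁻¹ * x ∉ T := by
      rw [Finset.mem_filter, Finset.mem_powerset]
      refine ⟨Finset.insert_subset hy hX.1, ?_⟩
      intro x hx z hz hxz
      rw [Finset.mem_insert] at hx hz
      rcases hx with rfl | hx
      · rcases hz with rfl | hz
        · exact absurd rfl hxz
        · exact h2 z hz
      · rcases hz with rfl | hz
        · exact h3 x hx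
        · exact hX.2 x hx z hz hxz
    have h5 := hmax _ h4
    rw [Finset.card_insert_of_notMem hyX] at h5
    omega
  calc E.card ≤ _ := Finset.card_le_card hcov
    _ ≤ (X ×ˢ (T ∪ T.image fun t => t⁻¹)).card := Finset.card_image_le
    _ = X.card * (T ∪ T.image fun t => t⁻¹).card := Finset.card_product _ _
    _ ≤ X.card * (T.card + T.card) := by
        apply Nat.mul_le_mul_left
        exact (Finset.card_union_le _ _).trans (Nat.add_le_add_left Finset.card_image_le _)
    _ = _ := by ring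

end Vale.Agent.P260.H970
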