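import Mathlib
import Vale.Agent.P260.H493.Defs

/-!
# P260, M8 (rank argument): vectors supported in a set, truncations, supports of linear maps
-/

namespace Vale.Agent.P260.H970

set_option linter.unusedSectionVars false

open Module H493

section

variable {k Γ : Type} [Field k] [Group Γ]

/-- vectors supported in `S` -/
def Vs (k : Type) [Field k] (n : ℕ) (S : Set Γ) : Submodule k (Fin n → MonoidAlgebra k Γ) where
  carrier := {v | ∀ i g, (v i).coeff g ≠ 0 → g ∈ S}
  zero_mem' := by
    intro i g h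
    exact absurd rfl h
  add_mem' := by
    intro v w hv hw i g h
    by_cases h1 : (v i).coeff g = 0
    · by_cases h2 : (w i).coeff g = 0
      · exfalso
        apply h
        rw [Pi.add_apply, MonoidAlgebra.coeff_add, Finsupp.add_apply, h1, h2, add_zero]
      · exact hw i g h2
    · exact hv i g h1
  smul_mem' := by
    intro c v hv i g h
    apply hv i g
    intro h1
    apply h
    rw [Pi.smul_apply, MonoidAlgebra.coeff_smul, Finsupp.smul_apply, h1, smul_zero]

theorem mem_Vs {n : ℕ} {S : Set Γ} {v : Fin n → MonoidAlgebra k Γ} :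
    v ∈ Vs k n S ↔ ∀ i g, (v i).coeff g ≠ 0 → g ∈ S := Iff.rfl

theorem Vs_mono {n : ℕ} {S T : Set Γ} (h : S ⊆ T) : Vs k n S ≤ Vs k n T :=
  fun _ hv i g hg => h (hv i g hg)

/-- `Vs` of a finite set in coordinates -/
noncomputable def VsEquiv (n : ℕ) (S : Finset Γ) :
    Vs k n (S : Set Γ) ≃ₗ[k] (Fin n × S → k) := by
  classical
  exact LinearEquiv.ofBijective
    { toFun := fun v p => (v.1 p.1).coeff p.2
      map_add' := fun v w => by
        ext p
        rfl
      map_smul' := fun c v => by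
        ext p
        rfl } (by
    constructor
    · intro v w h
      apply Subtype.ext
      funext i
      apply MonoidAlgebra.coeff_injective
      ext g
      by_cases hg : g ∈ S
      · exact congrFun h (i, ⟨g, hg⟩)
      · have h1 : (v.1 i).coeff g = 0 := by
          by_contra hc
          exact hg (v.2 i g hc)
        have h2 : (w.1 i).coeff g = 0 := by
          by_contra hc
          exact hg (w.2 i g hc)
        rw [h1, h2]
    · intro f
      refine ⟨⟨fun i => MonoidAlgebra.ofCoeff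
        (Finsupp.onFinset S (fun g => if hg : g ∈ S then f (i, ⟨g, hg⟩) else 0) ?_), ?_⟩, ?_⟩
      · intro g hg
        by_contra hc
        rw [dif_neg hc] at hg
        exact hg rfl
      · intro i g hg
        change (if hg : g ∈ S then f (i, ⟨g, hg⟩) else 0) ≠ 0 at hg
        by_contra hc
        have hc' : g ∉ S := hc
        rw [dif_neg hc'] at hg
        exact hg rfl
      · funext p
        change (if hg : (p.2 : Γ) ∈ S then f (p.1, ⟨p.2, hg⟩) else 0) = f p
        rw [dif_pos p.2.2])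

instance (n : ℕ) (S : Finset Γ) : FiniteDimensional k (Vs k n (S : Set Γ)) :=
  LinearEquiv.finiteDimensional (VsEquiv (k := k) n S).symm

theorem finrank_Vs (n : ℕ) (S : Finset Γ) : finrank k (Vs k n (S : Set Γ)) = n * S.card := by
  rw [LinearEquiv.finrank_eq (VsEquiv (k := k) n S), Module.finrank_fintype_fun_eq_card,
    Fintype.card_prod, Fintype.card_fin, Fintype.card_coe]

open Classical in
/-- truncation to the set `S` -/
noncomputable def cut (k : Type) [Field k] (n : ℕ) (S : Set Γ) :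
    (Fin n → MonoidAlgebra k Γ) →ₗ[k] (Fin n → MonoidAlgebra k Γ) where
  toFun v i := MonoidAlgebra.ofCoeff ((v i).coeff.filter (· ∈ S))
  map_add' v w := by
    funext i
    rw [Pi.add_apply, Pi.add_apply, MonoidAlgebra.coeff_add, Finsupp.filter_add,
      MonoidAlgebra.ofCoeff_add]
  map_smul' c v := by
    funext i
    rw [Pi.smul_apply, MonoidAlgebra.coeff_smul, Finsupp.filter_smul,
      MonoidAlgebra.ofCoeff_smul]
    rfl

open Classical in
theorem cut_coeff (n : ℕ) (S : Set Γ) (v : Fin n → MonoidAlgebra k Γ) (i : Fin n) (g : Γ) :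
    (cut k n S v i).coeff g = if g ∈ S then (v i).coeff g else 0 := by
  change ((v i).coeff.filter (· ∈ S)) g = _
  rw [Finsupp.filter_apply]

theorem cut_of_mem {n : ℕ} {S : Set Γ} {v : Fin n → MonoidAlgebra k Γ} (h : v ∈ Vs k n S) :
    cut k n S v = v := by
  classical
  funext i
  apply MonoidAlgebra.coeff_injective
  ext g
  rw [cut_coeff]
  split_ifs with hg
  · rfl
  · by_contra hc
    exact hg (h i g (Ne.symm hc))

theorem cut_eq_zero {n : ℕ} {S : Set Γ} {v : Fin n → MonoidAlgebra k Γ}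
    (h : ∀ i g, (v i).coeff g ≠ 0 → g ∉ S) :
    cut k n S v = 0 := by
  classical
  funext i
  apply MonoidAlgebra.coeff_injective
  ext g
  rw [cut_coeff]
  split_ifs with hg
  · by_contra hc
    exact h i g hc hg
  · rfl

/-- the part of degree `< c` -/
noncomputable abbrev lo (k : Type) [Field k] (ψ : Γ →* Multiplicative ℤ) (n : ℕ) (c : ℤ) :
    (Fin n → MonoidAlgebra k Γ) →ₗ[k] (Fin n → MonoidAlgebra k Γ) :=
  cut k n {g | deg ψ g < c}

variable {ψ : Γ →* Multiplicative ℤ}

theorem lo_of_ge {n : ℕ} {c : ℤ} {v : Fin n → MonoidAlgebra k Γ} (h : Ge ψ c v) :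
    lo k ψ n c v = 0 :=
  cut_eq_zero fun i g hg hlt => absurd (h i g hg) (not_le.2 hlt)

theorem ge_sub_lo {n : ℕ} {c : ℤ} (v : Fin n → MonoidAlgebra k Γ) :
    Ge ψ c (v - lo k ψ n c v) := by
  classical
  intro i g hg
  by_contra hc
  apply hg
  rw [Pi.sub_apply, MonoidAlgebra.coeff_sub, Finsupp.sub_apply, cut_coeff, if_pos, sub_self]
  exact not_le.1 hc

theorem ge_mono {n : ℕ} {c c' : ℤ} (hc : c' ≤ c) {v : Fin n → MonoidAlgebra k Γ}
    (h : Ge ψ c v) : Ge ψ c' v := fun i g hg => hc.trans (h i g hg)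

theorem ge_add {n : ℕ} {c : ℤ} {v w : Fin n → MonoidAlgebra k Γ}
    (hv : Ge ψ c v) (hw : Ge ψ c w) : Ge ψ c (v + w) := by
  intro i g h
  by_cases h1 : (v i).coeff g = 0
  · by_cases h2 : (w i).coeff g = 0
    · exfalso
      apply h
      rw [Pi.add_apply, MonoidAlgebra.coeff_add, Finsupp.add_apply, h1, h2, add_zero]
    · exact hw i g h2
  · exact hv i g h1

theorem ge_neg {n : ℕ} {c : ℤ} {v : Fin n → MonoidAlgebra k Γ}
    (hv : Ge ψ c v) : Ge ψ c (-v) := by
  intro i g h
  apply hv i g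
  intro h1
  apply h
  rw [Pi.neg_apply, MonoidAlgebra.coeff_neg, Finsupp.neg_apply, h1, neg_zero]

theorem ge_sub {n : ℕ} {c : ℤ} {v w : Fin n → MonoidAlgebra k Γ}
    (hv : Ge ψ c v) (hw : Ge ψ c w) : Ge ψ c (v - w) := by
  rw [sub_eq_add_neg]
  exact ge_add hv (ge_neg hw)

/-! ### supports of linear maps -/

open Classical in
/-- all group elements in the matrix of `T` -/
noncomputable def msup {a b : ℕ}
    (T : (Fin a → MonoidAlgebra k Γ) →ₗ[MonoidAlgebra k Γ] (Fin b → MonoidAlgebra k Γ)) :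
    Finset Γ :=
  Finset.univ.biUnion fun i : Fin a => Finset.univ.biUnion fun j : Fin b =>
    (T (Pi.single i 1) j).coeff.support

open Classical in
theorem mem_msup {a b : ℕ}
    {T : (Fin a → MonoidAlgebra k Γ) →ₗ[MonoidAlgebra k Γ] (Fin b → MonoidAlgebra k Γ)} {s : Γ} :
    s ∈ msup T ↔ ∃ i j, (T (Pi.single i 1) j).coeff s ≠ 0 := by
  simp only [msup, Finset.mem_biUnion, Finset.mem_univ, true_and, Finsupp.mem_support_iff]

open Classical in
theorem apply_supp {a b : ℕ}
    (T : (Fin a → MonoidAlgebra k Γ) →ₗ[MonoidAlgebra k Γ] (Fin b → MonoidAlgebra k Γ))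
    (v : Fin a → MonoidAlgebra k Γ) (j : Fin b) (g : Γ) (h : (T v j).coeff g ≠ 0) :
    ∃ i x s, (v i).coeff x ≠ 0 ∧ (T (Pi.single i 1) j).coeff s ≠ 0 ∧ g = x * s := by
  have h1 : T v j = ∑ i, v i * T (Pi.single i 1) j := by
    conv_lhs => rw [pi_eq_sum_univ' v]
    rw [map_sum, Finset.sum_apply]
    refine Finset.sum_congr rfl fun i _ => ?_
    rw [map_smul, Pi.smul_apply, smul_eq_mul]
  rw [h1, MonoidAlgebra.coeff_sum, Finsupp.finsetSum_apply] at h
  obtain ⟨i, -, hi⟩ := Finset.exists_ne_zero_of_sum_ne_zero h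
  have h2 : g ∈ (v i * T (Pi.single i 1) j).coeff.support := Finsupp.mem_support_iff.2 hi
  have h3 := MonoidAlgebra.support_coeff_mul_subset _ _ h2
  rw [Finset.mem_mul] at h3
  obtain ⟨x, hx, s, hs, rfl⟩ := h3
  exact ⟨i, x, s, Finsupp.mem_support_iff.1 hx, Finsupp.mem_support_iff.1 hs, rfl⟩

end

end Vale.Agent.P260.H970
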