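import Mathlib
import Vale.Agent.P260.H970.Fol
import Vale.Agent.P260.H970.Vec
import Vale.Agent.P260.H970.LA

/-!
# P260, M8 (rank argument): windows
-/

namespace Vale.Agent.P260.H970

open Module H493

theorem arith (a b c γ J m r E Qp Qm δ : ℕ) (hm : J = m + 2 * γ)
    (h : r + b * (E * J) + a * (Qm * m) ≤
      b * (Qp * (J + γ)) + c * (Qp * (2 * γ)) + a * (Qp * (J + 2 * γ)))
    (hδ : (J + 2 * γ) * δ ≤ E) (hQp : Qp ≤ E + δ) (hQm : E ≤ Qm + δ) :
    r ≤ (b * γ + b + 2 * γ * c + c + 4 * a * γ + 2 * a) * E := by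
  subst hm
  have h1 : b * (Qp * (m + 2 * γ + γ)) ≤ b * ((E + δ) * (m + 2 * γ + γ)) := by gcongr
  have h2 : c * (Qp * (2 * γ)) ≤ c * ((E + δ) * (2 * γ)) := by gcongr
  have h3 : a * (Qp * (m + 2 * γ + 2 * γ)) ≤ a * ((E + δ) * (m + 2 * γ + 2 * γ)) := by gcongr
  have h4 : a * (E * m) ≤ a * ((Qm + δ) * m) := by gcongr
  have h5 : b * (δ * (m + 3 * γ)) ≤ b * E := by
    apply Nat.mul_le_mul_left
    refine le_trans ?_ hδ
    rw [mul_comm]
    apply Nat.mul_le_mul_right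
    omega
  have h6 : c * (δ * (2 * γ)) ≤ c * E := by
    apply Nat.mul_le_mul_left
    refine le_trans ?_ hδ
    rw [mul_comm]
    apply Nat.mul_le_mul_right
    omega
  have h7 : a * (δ * (m + 4 * γ)) ≤ a * E := by
    apply Nat.mul_le_mul_left
    refine le_trans ?_ hδ
    rw [mul_comm]
    apply Nat.mul_le_mul_right
    omega
  have h8 : a * (δ * m) ≤ a * E := by
    apply Nat.mul_le_mul_left
    refine le_trans ?_ hδ
    rw [mul_comm]
    apply Nat.mul_le_mul_right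
    omega
  nlinarith

section

variable {Γ : Type} [Group Γ] (ψ : Γ →* Multiplicative ℤ)

theorem deg_mul (g h : Γ) : deg ψ (g * h) = deg ψ g + deg ψ h := by
  rw [deg, map_mul]; rfl

theorem deg_one : deg ψ (1 : Γ) = 0 := by
  rw [deg, map_one]; rfl

theorem deg_inv (g : Γ) : deg ψ g⁻¹ = - deg ψ g := by
  rw [deg, map_inv]; rfl

theorem deg_zpow (g : Γ) (n : ℤ) : deg ψ (g ^ n) = n * deg ψ g := by
  rw [deg, map_zpow, toAdd_zpow, smul_eq_mul]; rfl

theorem deg_t {t : Γ} (ht : deg ψ t = 1) (n : ℤ) : deg ψ (t ^ n) = n := by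
  rw [deg_zpow, ht, mul_one]

open Classical in
/-- the window `{x t^i : x ∈ Q, p ≤ i < q}` -/
noncomputable def Win (t : Γ) (Q : Finset Γ) (p q : ℤ) : Finset Γ :=
  (Q ×ˢ Finset.Ico p q).image fun x => x.1 * t ^ x.2

theorem mem_Win {t : Γ} (ht : deg ψ t = 1) {Q : Finset Γ} (hQ : ∀ x ∈ Q, deg ψ x = 0) {p q : ℤ}
    {g : Γ} : g ∈ Win t Q p q ↔ g * t ^ (-deg ψ g) ∈ Q ∧ p ≤ deg ψ g ∧ deg ψ g < q := by
  classical
  rw [Win, Finset.mem_image]
  constructor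
  · rintro ⟨⟨x, i⟩, h, rfl⟩
    rw [Finset.mem_product, Finset.mem_Ico] at h
    have h1 : deg ψ (x * t ^ i) = i := by rw [deg_mul, hQ x h.1, deg_t ψ ht, zero_add]
    change x * t ^ i * t ^ (-deg ψ (x * t ^ i)) ∈ Q ∧ p ≤ deg ψ (x * t ^ i) ∧
      deg ψ (x * t ^ i) < q
    rw [h1, mul_assoc, ← zpow_add, add_neg_cancel, zpow_zero, mul_one]
    exact h
  · rintro ⟨h1, h2, h3⟩
    refine ⟨(g * t ^ (-deg ψ g), deg ψ g), Finset.mk_mem_product h1 (Finset.mem_Ico.2 ⟨h2, h3⟩), ?_⟩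
    change g * t ^ (-deg ψ g) * t ^ deg ψ g = g
    rw [mul_assoc, ← zpow_add, neg_add_cancel, zpow_zero, mul_one]

theorem card_Win {t : Γ} (ht : deg ψ t = 1) {Q : Finset Γ} (hQ : ∀ x ∈ Q, deg ψ x = 0) (p q : ℤ) :
    (Win t Q p q).card = Q.card * (q - p).toNat := by
  classical
  rw [Win, Finset.card_image_of_injOn, Finset.card_product, Int.card_Ico]
  rintro ⟨x, i⟩ h ⟨y, j⟩ h' hxy
  rw [Finset.mem_coe, Finset.mem_product] at h h'
  change x * t ^ i = y * t ^ j at hxy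
  have h1 := congrArg (deg ψ) hxy
  rw [deg_mul, deg_mul, hQ x h.1, hQ y h'.1, deg_t ψ ht, deg_t ψ ht, zero_add, zero_add] at h1
  subst h1
  rw [mul_right_cancel hxy]

/-- the kernel part of the right translation by `s` in degree `i` -/
def lam (t : Γ) (i : ℤ) (s : Γ) : Γ := t ^ i * s * t ^ (-(i + deg ψ s))

theorem deg_lam {t : Γ} (ht : deg ψ t = 1) (i : ℤ) (s : Γ) : deg ψ (lam ψ t i s) = 0 := by
  rw [lam, deg_mul, deg_mul, deg_t ψ ht, deg_t ψ ht]
  ring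

theorem step (t h s : Γ) :
    h * s * t ^ (-deg ψ (h * s)) = h * t ^ (-deg ψ h) * lam ψ t (deg ψ h) s := by
  rw [lam, deg_mul]
  have : h * t ^ (-deg ψ h) * (t ^ deg ψ h * s * t ^ (-(deg ψ h + deg ψ s))) =
      h * (t ^ (-deg ψ h) * t ^ deg ψ h) * s * t ^ (-(deg ψ h + deg ψ s)) := by
    simp only [mul_assoc]
  rw [this, ← zpow_add, neg_add_cancel, zpow_zero, mul_one]

end

section

variable {k Γ : Type} [Field k] [Group Γ] {ψ : Γ →* Multiplicative ℤ}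

/-- The upper bound for the rank. -/
theorem upper (hF : Folner Γ) {t : Γ} (ht : deg ψ t = 1) {a b c : ℕ}
    (D : (Fin a → MonoidAlgebra k Γ) →ₗ[MonoidAlgebra k Γ] (Fin b → MonoidAlgebra k Γ))
    (D' : (Fin b → MonoidAlgebra k Γ) →ₗ[MonoidAlgebra k Γ] (Fin c → MonoidAlgebra k Γ))
    (e : (Fin b → MonoidAlgebra k Γ) →ₗ[MonoidAlgebra k Γ] (Fin b → MonoidAlgebra k Γ))
    (hex : ∀ v, D' v = 0 → ∃ w, D w = v) (γ J : ℕ) (hJ : 2 * γ ≤ J)
    (hD : ∀ s ∈ msup D, -(γ : ℤ) ≤ deg ψ s ∧ deg ψ s ≤ γ)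
    (hD' : ∀ s ∈ msup D', -(γ : ℤ) ≤ deg ψ s ∧ deg ψ s ≤ γ)
    (he : Shift ψ (-(γ : ℤ)) e) (hDs : Shift ψ (-(γ : ℤ)) D')
    (heD : Shift ψ (J : ℤ) (e ∘ₗ D)) (hDe : Shift ψ (J : ℤ) (D' ∘ₗ e))
    (hee : Shift ψ (J : ℤ) (e ∘ₗ e - e)) :
    ∃ E : Finset Γ, E.Nonempty ∧ (∀ x ∈ E, deg ψ x = 0) ∧
      finrank k ((Vs k b (Win t E 0 J : Set Γ)).map
        (lo k ψ b (J - γ) ∘ₗ e.restrictScalars k)) ≤
      (b * γ + b + 2 * γ * c + c + 4 * a * γ + 2 * a) * E.card := by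
  classical
  obtain ⟨SS, hSS⟩ : ∃ SS : Finset Γ, SS = (msup D ∪ msup D' ∪ msup e) ∪
    (msup D ∪ msup D' ∪ msup e).image fun s => s⁻¹ := ⟨_, rfl⟩
  obtain ⟨Λ, hΛ⟩ : ∃ Λ : Finset Γ, Λ = insert 1
    ((Finset.Ico (0 : ℤ) J ×ˢ SS).image fun x => lam ψ t x.1 x.2) := ⟨_, rfl⟩
  have hΛ0 : ∀ l ∈ Λ, deg ψ l = 0 := by
    intro l hl
    rw [hΛ, Finset.mem_insert, Finset.mem_image] at hl
    rcases hl with rfl | ⟨x, _, rfl⟩
    · exact deg_one ψ
    · exact deg_lam ψ ht _ _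
  obtain ⟨E, Qp, Qm, δ, hEne, hδ, hQp, hQm, hEQ, hQE, hE0, hQp0⟩ :=
    folner_ker ψ hF Λ hΛ0 (J + 2 * γ)
  have h1Λ : (1 : Γ) ∈ Λ := by rw [hΛ]; exact Finset.mem_insert_self _ _
  have hlam : ∀ i : ℤ, 0 ≤ i → i < J → ∀ s ∈ SS, lam ψ t i s ∈ Λ := by
    intro i h0 h1 s hs
    rw [hΛ]
    exact Finset.mem_insert_of_mem (Finset.mem_image.2
      ⟨(i, s), Finset.mk_mem_product (Finset.mem_Ico.2 ⟨h0, h1⟩) hs, rfl⟩)
  have hQm0 : ∀ x ∈ Qm, deg ψ x = 0 := fun x hx => hE0 x (hQE x hx).1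
  have hEQp : ∀ x ∈ E, x ∈ Qp := by
    intro x hx
    have := hEQ x hx 1 h1Λ
    rwa [mul_one] at this
  have hS1 : ∀ s ∈ msup D, s ∈ SS := by
    intro s hs
    rw [hSS, Finset.mem_union, Finset.mem_union, Finset.mem_union]
    exact Or.inl (Or.inl (Or.inl hs))
  have hS2 : ∀ s ∈ msup D', s ∈ SS := by
    intro s hs
    rw [hSS, Finset.mem_union, Finset.mem_union, Finset.mem_union]
    exact Or.inl (Or.inl (Or.inr hs))
  have hS3 : ∀ s ∈ msup e, s ∈ SS := by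
    intro s hs
    rw [hSS, Finset.mem_union, Finset.mem_union, Finset.mem_union]
    exact Or.inl (Or.inr hs)
  have hS4 : ∀ s ∈ msup D, s⁻¹ ∈ SS := by
    intro s hs
    rw [hSS, Finset.mem_union]
    right
    apply Finset.mem_image_of_mem
    rw [Finset.mem_union, Finset.mem_union]
    exact Or.inl (Or.inl hs)
  obtain ⟨W, hW⟩ : ∃ W : Finset Γ, W = Win t E 0 J := ⟨_, rfl⟩
  have memW : ∀ g, g ∈ W ↔ g * t ^ (-deg ψ g) ∈ E ∧ 0 ≤ deg ψ g ∧ deg ψ g < J := by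
    intro g
    rw [hW]
    exact mem_Win ψ ht hE0
  -- right translates of the window
  have hstep : ∀ g ∈ W, ∀ s ∈ SS, g * s * t ^ (-deg ψ (g * s)) ∈ Qp := by
    intro g hg s hs
    rw [memW] at hg
    rw [step]
    exact hEQ _ hg.1 _ (hlam _ hg.2.1 hg.2.2 s hs)
  have hWge : ∀ v ∈ Vs k b (W : Set Γ), Ge ψ 0 v := by
    intro v hv i g hg
    exact ((memW g).1 (hv i g hg)).2.1
  have hWe : ∀ v ∈ Vs k b (W : Set Γ), Ge ψ (-(γ : ℤ)) (v - e v) := by
    intro v hv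
    refine ge_sub (ge_mono (by omega) (hWge v hv)) ?_
    have := he 0 v (hWge v hv)
    rwa [zero_add] at this
  have hWD : ∀ w ∈ Vs k a (Win t Qm γ (J - γ) : Set Γ), D w ∈ Vs k b (W : Set Γ) := by
    intro w hw j g hg
    obtain ⟨i, x, s, hx, hs, rfl⟩ := apply_supp D w j g hg
    have h1 := (mem_Win ψ ht hQm0).1 (hw i x hx)
    have h2 : s ∈ msup D := mem_msup.2 ⟨i, j, hs⟩
    have h3 := hD s h2
    rw [Finset.mem_coe, memW, step, deg_mul]
    exact ⟨(hQE _ h1.1).2 _ (hlam _ (by omega) (by omega) s (hS1 s h2)), by omega, by omega⟩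
  have hA : Vs k a (Win t Qm γ (J - γ) : Set Γ) ≤ Vs k a (Win t Qp (-γ) (J + γ) : Set Γ) := by
    apply Vs_mono
    intro g hg
    rw [Finset.mem_coe, mem_Win ψ ht hQm0] at hg
    rw [Finset.mem_coe, mem_Win ψ ht hQp0]
    exact ⟨hEQp _ (hQE _ hg.1).1, by omega, by omega⟩
  have hVS : Vs k b (W : Set Γ) ≤ Vs k b (Win t Qp (-γ) J : Set Γ) := by
    apply Vs_mono
    intro g hg
    rw [Finset.mem_coe, memW] at hg
    rw [Finset.mem_coe, mem_Win ψ ht hQp0]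
    exact ⟨hEQp _ hg.1, by omega, by omega⟩
  have h1 : ∀ v ∈ Vs k b (W : Set Γ),
      lo k ψ c (J - γ) (D' (lo k ψ b J (v - e v))) = lo k ψ c (J - γ) (D' v) := by
    intro v hv
    have e1 : lo k ψ b J (v - e v) = (v - e v) - ((v - e v) - lo k ψ b J (v - e v)) := by
      rw [sub_sub_cancel]
    have e2 : lo k ψ c (J - γ) (D' ((v - e v) - lo k ψ b J (v - e v))) = 0 := by
      apply lo_of_ge
      have := hDs J _ (ge_sub_lo (ψ := ψ) (c := (J : ℤ)) (v - e v))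
      rwa [← sub_eq_add_neg] at this
    have e3 : lo k ψ c (J - γ) (D' (e v)) = 0 := by
      apply lo_of_ge
      have := hDe 0 v (hWge v hv)
      exact ge_mono (by omega) this
    rw [e1, map_sub D', map_sub (lo k ψ c (J - γ)), e2, sub_zero, map_sub D',
      map_sub (lo k ψ c (J - γ)), e3, sub_zero]
  have h2 : ∀ w ∈ Vs k a (Win t Qm γ (J - γ) : Set Γ), D w ∈ Vs k b (W : Set Γ) ∧
      lo k ψ b J (D w - e (D w)) = D w := by
    intro w hw
    refine ⟨hWD w hw, ?_⟩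
    have e1 : lo k ψ b J (e (D w)) = 0 := by
      apply lo_of_ge
      have h3 : Ge ψ 0 w := by
        intro i g hg
        have h4 := (mem_Win ψ ht hQm0).1 (hw i g hg)
        omega
      have := heD 0 w h3
      rwa [zero_add] at this
    rw [map_sub, e1, sub_zero]
    apply cut_of_mem
    intro i g hg
    exact ((memW g).1 (hWD w hw i g hg)).2.2
  have h3 : ∀ v ∈ Vs k b (W : Set Γ), D' v = 0 →
      ∃ w ∈ Vs k a (Win t Qp (-γ) (J + γ) : Set Γ), cut k b (W : Set Γ) (D w) = v := by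
    intro v hv hv0
    obtain ⟨w, hw⟩ := hex v hv0
    refine ⟨cut k a (Win t Qp (-γ) (J + γ) : Set Γ) w, ?_, ?_⟩
    · intro i g hg
      rw [cut_coeff] at hg
      by_contra hc
      rw [if_neg hc] at hg
      exact hg rfl
    · have e1 : cut k b (W : Set Γ)
          (D (w - cut k a (Win t Qp (-γ) (J + γ) : Set Γ) w)) = 0 := by
        apply cut_eq_zero
        intro j g hg hgW
        obtain ⟨i, x, s, hx, hs, rfl⟩ := apply_supp D _ j g hg
        have h2 : s ∈ msup D := mem_msup.2 ⟨i, j, hs⟩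
        have h3 := hD s h2
        have h4 := (memW _).1 hgW
        have h5 := hstep _ hgW s⁻¹ (hS4 s h2)
        rw [mul_inv_cancel_right] at h5
        rw [deg_mul] at h4
        apply hx
        rw [Pi.sub_apply, MonoidAlgebra.coeff_sub, Finsupp.sub_apply, cut_coeff, if_pos, sub_self]
        rw [Finset.mem_coe, mem_Win ψ ht hQp0]
        exact ⟨h5, by omega, by omega⟩
      rw [map_sub D, map_sub (cut k b (W : Set Γ)), hw, cut_of_mem hv, sub_eq_zero] at e1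
      exact e1.symm
  have h3' : ∀ w ∈ Vs k a (Win t Qm γ (J - γ) : Set Γ), cut k b (W : Set Γ) (D w) = D w :=
    fun w hw => cut_of_mem (hWD w hw)
  have h4 : ∀ v ∈ Vs k b (W : Set Γ), lo k ψ b J (v - e v) ∈ Vs k b (Win t Qp (-γ) J : Set Γ) := by
    intro v hv j g hg
    rw [cut_coeff, Set.mem_ofPred_eq] at hg
    have hlt : deg ψ g < J := by
      by_contra hc
      rw [if_neg hc] at hg
      exact hg rfl
    have hg' : ((v - e v) j).coeff g ≠ 0 := by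
      intro h0
      apply hg
      rw [if_pos hlt]
      exact h0
    have hge := hWe v hv j g hg'
    rw [Finset.mem_coe, mem_Win ψ ht hQp0]
    refine ⟨?_, hge, hlt⟩
    rw [Pi.sub_apply, MonoidAlgebra.coeff_sub, Finsupp.sub_apply] at hg'
    by_cases h0 : (v j).coeff g = 0
    · rw [h0, zero_sub, neg_ne_zero] at hg'
      obtain ⟨i, x, s, hx, hs, rfl⟩ := apply_supp e v j g hg'
      exact hstep x (hv i x hx) s (hS3 s (mem_msup.2 ⟨i, j, hs⟩))
    · exact hEQp _ ((memW g).1 (hv j g h0)).1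
  have h5 : ∀ v ∈ Vs k b (W : Set Γ), lo k ψ b (J - γ) (e (lo k ψ b J (v - e v))) = 0 := by
    intro v hv
    have e1 : lo k ψ b J (v - e v) = (v - e v) - ((v - e v) - lo k ψ b J (v - e v)) := by
      rw [sub_sub_cancel]
    have e2 : lo k ψ b (J - γ) (e ((v - e v) - lo k ψ b J (v - e v))) = 0 := by
      apply lo_of_ge
      have := he J _ (ge_sub_lo (ψ := ψ) (c := (J : ℤ)) (v - e v))
      rwa [← sub_eq_add_neg] at this
    have e3 : lo k ψ b (J - γ) (e (v - e v)) = 0 := by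
      apply lo_of_ge
      have h6 := hee 0 v (hWge v hv)
      have h7 := ge_neg h6
      have h8 : -((e ∘ₗ e - e) v) = e (v - e v) := by
        rw [map_sub, LinearMap.sub_apply, neg_sub]
        rfl
      rw [h8] at h7
      exact ge_mono (by omega) h7
    rw [e1, map_sub e, map_sub (lo k ψ b (J - γ)), e2, e3, sub_zero]
  have h6 : ∀ v ∈ Vs k b (W : Set Γ), lo k ψ c (J - γ) (D' v) = 0 →
      D' v ∈ Vs k c (Win t Qp (J - γ) (J + γ) : Set Γ) := by
    intro v hv h0 j g hg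
    have h7 : (J : ℤ) - γ ≤ deg ψ g := by
      by_contra hc
      apply hg
      have h8 := congrArg (fun w : Fin c → MonoidAlgebra k Γ => (w j).coeff g) h0
      change (lo k ψ c (J - γ) (D' v) j).coeff g = 0 at h8
      rw [cut_coeff, if_pos] at h8
      · exact h8
      · exact not_le.1 hc
    obtain ⟨i, x, s, hx, hs, rfl⟩ := apply_supp D' v j g hg
    have h8 : s ∈ msup D' := mem_msup.2 ⟨i, j, hs⟩
    have h9 := hD' s h8
    have h10 := (memW x).1 (hv i x hx)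
    rw [Finset.mem_coe, mem_Win ψ ht hQp0]
    refine ⟨hstep x (hv i x hx) s (hS2 s h8), h7, ?_⟩
    rw [deg_mul]
    omega
  have hcore := core (k := k) (D.restrictScalars k) (D'.restrictScalars k) (e.restrictScalars k)
    (lo k ψ b J) (lo k ψ b (J - γ)) (cut k b (W : Set Γ)) (lo k ψ c (J - γ))
    (Vs k a (Win t Qm γ (J - γ) : Set Γ)) (Vs k a (Win t Qp (-γ) (J + γ) : Set Γ))
    (Vs k b (W : Set Γ)) (Vs k b (Win t Qp (-γ) J : Set Γ))
    (Vs k c (Win t Qp (J - γ) (J + γ) : Set Γ)) hA hVS h1 h2 h3 h3' h4 h5 h6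
  refine ⟨E, hEne, hE0, ?_⟩
  rw [← hW]
  rw [finrank_Vs, finrank_Vs, finrank_Vs, finrank_Vs, finrank_Vs, card_Win ψ ht hQm0,
    card_Win ψ ht hQp0, card_Win ψ ht hQp0, card_Win ψ ht hQp0] at hcore
  have t0 : W.card = E.card * J := by
    rw [hW, card_Win ψ ht hE0]
    congr 1
  have t2 : ((J : ℤ) - γ - γ).toNat = J - 2 * γ := by omega
  have t3 : ((J : ℤ) - -γ).toNat = J + γ := by omega
  have t4 : ((J : ℤ) + γ - (J - γ)).toNat = 2 * γ := by omega
  have t5 : ((J : ℤ) + γ - -γ).toNat = J + 2 * γ := by omega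
  rw [t0, t2, t3, t4, t5] at hcore
  exact arith a b c γ J (J - 2 * γ) _ E.card Qp.card Qm.card δ (by omega) hcore hδ hQp hQm

end

end Vale.Agent.P260.H970
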