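import Mathlib
import Vale.Agent.P260.H970.Win
import Vale.Agent.P260.H493.Spec

/-!
# P260, M8: the rank argument
-/

namespace Vale.Agent.P260.H970

open Module H493

section

variable {k Γ : Type} [Field k] [Group Γ] {ψ : Γ →* Multiplicative ℤ}

/-- a coordinate, as a functional -/
def cf (k : Type) [Field k] (b : ℕ) (j : Fin b) (g : Γ) :
    (Fin b → MonoidAlgebra k Γ) →ₗ[k] k where
  toFun v := (v j).coeff g
  map_add' _ _ := rfl
  map_smul' _ _ := rfl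

/-- The lower bound for the rank. -/
theorem lower {t : Γ} (ht : deg ψ t = 1) {b : ℕ}
    (e : (Fin b → MonoidAlgebra k Γ) →ₗ[MonoidAlgebra k Γ] (Fin b → MonoidAlgebra k Γ))
    (β j₀ : Fin b) (g₀ : Γ) (Su : Finset Γ) (c₀ : ℤ) (hc₀ : deg ψ g₀ = c₀)
    (hg₀ : (e (Pi.single β 1) j₀).coeff g₀ ≠ 0)
    (hSu : ∀ h, (e (Pi.single β 1) j₀).coeff h ≠ 0 → c₀ ≤ deg ψ h ∧ (deg ψ h = c₀ → h ∈ Su))
    (E : Finset Γ) (hE0 : ∀ x ∈ E, deg ψ x = 0) (J I : ℕ) (m : ℤ) (hIJ : I ≤ J)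
    (hm : I + c₀ ≤ m) :
    I * E.card ≤ 2 * Su.card * finrank k ((Vs k b (Win t E 0 J : Set Γ)).map
      (lo k ψ b m ∘ₗ e.restrictScalars k)) := by
  classical
  have hX : ∀ i : ℕ, ∃ X ⊆ E, E.card ≤ 2 * Su.card * X.card ∧ ∀ x ∈ X, ∀ y ∈ X, x ≠ y →
      y⁻¹ * x ∉ Su.image fun s => t ^ i * s * g₀⁻¹ * (t ^ i)⁻¹ := by
    intro i
    obtain ⟨X, hXE, hX1, hX2⟩ := greedy E (Su.image fun s => t ^ i * s * g₀⁻¹ * (t ^ i)⁻¹) (by
      rw [Finset.mem_image]
      exact ⟨g₀, (hSu g₀ hg₀).2 hc₀, by group⟩)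
    refine ⟨X, hXE, hX1.trans ?_, hX2⟩
    apply Nat.mul_le_mul_right
    apply Nat.mul_le_mul_left
    exact Finset.card_image_le
  choose X hXE hX1 hX2 using hX
  obtain ⟨Y, hY⟩ : ∃ Y : Finset (Σ _ : ℕ, Γ), Y = (Finset.range I).sigma X := ⟨_, rfl⟩
  have hmemY : ∀ p ∈ Y, p.1 < I ∧ p.2 ∈ X p.1 := by
    intro p hp
    rw [hY, Finset.mem_sigma, Finset.mem_range] at hp
    exact hp
  have hdeg : ∀ p ∈ Y, deg ψ (p.2 * t ^ p.1 * g₀) = p.1 + c₀ := by
    intro p hp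
    rw [deg_mul, deg_mul, hE0 _ (hXE _ (hmemY p hp).2), hc₀, ← zpow_natCast, deg_t ψ ht, zero_add]
  -- the coefficients
  have hcoef : ∀ p ∈ Y, ∀ q : Σ _ : ℕ, Γ,
      cf k b j₀ (p.2 * t ^ p.1 * g₀) (lo k ψ b m (e (MonoidAlgebra.single (q.2 * t ^ q.1) (1 : k) •
        Pi.single β 1))) =
      (e (Pi.single β 1) j₀).coeff ((q.2 * t ^ q.1)⁻¹ * (p.2 * t ^ p.1 * g₀)) := by
    intro p hp q
    change (lo k ψ b m (e (MonoidAlgebra.single (q.2 * t ^ q.1) (1 : k) •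
        Pi.single β 1)) j₀).coeff (p.2 * t ^ p.1 * g₀) = _
    have h1 : deg ψ (p.2 * t ^ p.1 * g₀) < m := by
      rw [hdeg p hp]
      have := (hmemY p hp).1
      omega
    have h1' : p.2 * t ^ p.1 * g₀ ∈ {g | deg ψ g < m} := h1
    rw [cut_coeff, if_pos h1', map_smul, Pi.smul_apply, smul_eq_mul,
      MonoidAlgebra.coeff_single_mul_apply, one_mul]
  have hcard := tri_card (k := k) ((Vs k b (Win t E 0 J : Set Γ)).map
      (lo k ψ b m ∘ₗ e.restrictScalars k)) (ι := Y) (fun p => (p.1.1 : ℤ))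
    (fun p => lo k ψ b m (e (MonoidAlgebra.single (p.1.2 * t ^ p.1.1) (1 : k) • Pi.single β 1)))
    (fun p => cf k b j₀ (p.1.2 * t ^ p.1.1 * g₀)) ?_ ?_ ?_
  · rw [Fintype.card_coe, hY, Finset.card_sigma] at hcard
    calc I * E.card = ∑ i ∈ Finset.range I, E.card := by
          rw [Finset.sum_const, Finset.card_range, smul_eq_mul]
      _ ≤ ∑ i ∈ Finset.range I, 2 * Su.card * (X i).card :=
          Finset.sum_le_sum fun i _ => hX1 i
      _ = 2 * Su.card * ∑ i ∈ Finset.range I, (X i).card := by rw [Finset.mul_sum]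
      _ ≤ _ := Nat.mul_le_mul_left _ hcard
  · intro p
    rw [hcoef p.1 p.2]
    have : (p.1.2 * t ^ p.1.1)⁻¹ * (p.1.2 * t ^ p.1.1 * g₀) = g₀ := by
      rw [inv_mul_cancel_left]
    rw [this]
    exact hg₀
  · intro p q hqp hdpq
    rw [hcoef p.1 p.2]
    by_contra hne
    have h1 := hSu _ hne
    have h2 : deg ψ ((q.1.2 * t ^ q.1.1)⁻¹ * (p.1.2 * t ^ p.1.1 * g₀)) =
        -(q.1.1 : ℤ) + (p.1.1 + c₀) := by
      rw [deg_mul, hdeg p.1 p.2, deg_inv, deg_mul, hE0 _ (hXE _ (hmemY q.1 q.2).2),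
        ← zpow_natCast t q.1.1, deg_t ψ ht, zero_add]
    rw [h2] at h1
    change (p.1.1 : ℤ) ≤ q.1.1 at hdpq
    have h3 : p.1.1 = q.1.1 := by omega
    have h4 := h1.2 (by omega)
    have h5 : p.1.2 ≠ q.1.2 := by
      intro h
      apply hqp
      apply Subtype.ext
      exact Sigma.ext h3.symm (heq_of_eq h.symm)
    have h6 : q.1.2 ∈ X p.1.1 := by
      have := (hmemY q.1 q.2).2
      rwa [← h3] at this
    apply hX2 p.1.1 p.1.2 (hmemY p.1 p.2).2 q.1.2 h6 h5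
    rw [Finset.mem_image]
    refine ⟨_, h4, ?_⟩
    rw [← h3]
    group
  · intro p
    refine ⟨MonoidAlgebra.single (p.1.2 * t ^ p.1.1) (1 : k) • Pi.single β 1, ?_, rfl⟩
    intro i g hg
    have hp := hmemY p.1 p.2
    rw [Finset.mem_coe, mem_Win ψ ht hE0]
    have hgeq : g = p.1.2 * t ^ p.1.1 := by
      rw [Pi.smul_apply, smul_eq_mul, MonoidAlgebra.coeff_single_mul_apply, one_mul,
        Pi.single_apply] at hg
      split_ifs at hg with h1
      · rw [MonoidAlgebra.one_def, MonoidAlgebra.coeff_single, Finsupp.single_apply] at hg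
        split_ifs at hg with h2
        · rw [eq_comm, inv_mul_eq_one] at h2
          exact h2.symm
        · exact absurd rfl hg
      · exact absurd rfl hg
    have h1 : deg ψ g = p.1.1 := by
      rw [hgeq, deg_mul, hE0 _ (hXE _ hp.2), ← zpow_natCast, deg_t ψ ht, zero_add]
    rw [h1, hgeq]
    refine ⟨?_, by omega, by omega⟩
    rw [← zpow_natCast, mul_assoc, ← zpow_add, add_neg_cancel, zpow_zero, mul_one]
    exact hXE _ hp.2

theorem shift_iff {a b : ℕ}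
    {T : (Fin a → MonoidAlgebra k Γ) →ₗ[MonoidAlgebra k Γ] (Fin b → MonoidAlgebra k Γ)} {C : ℤ} :
    Shift ψ C T ↔ ∀ i j s, (T (Pi.single i 1) j).coeff s ≠ 0 → C ≤ deg ψ s := by
  classical
  constructor
  · intro h i j s hs
    have h0 : Ge ψ 0 (Pi.single i 1 : Fin a → MonoidAlgebra k Γ) := by
      intro l g hg
      rw [Pi.single_apply] at hg
      split_ifs at hg with h1
      · rw [MonoidAlgebra.one_def, MonoidAlgebra.coeff_single, Finsupp.single_apply] at hg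
        split_ifs at hg with h2
        · rw [← h2, deg_one]
        · exact absurd rfl hg
      · exact absurd rfl hg
    have := h 0 _ h0 j s hs
    rwa [zero_add] at this
  · intro h c v hv j g hg
    obtain ⟨i, x, s, hx, hs, rfl⟩ := apply_supp T v j g hg
    rw [deg_mul]
    have h1 := hv i x hx
    have h2 := h i j s hs
    omega

end

theorem stmtRK : H493.StmtRK := by
  classical
  intro k Γ _ _ ψ a b c D D' hF hψ hex e hBd hCau heD hDe hee
  by_contra hN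
  rw [Null] at hN
  push Not at hN
  obtain ⟨C₁, hC₁⟩ := hN
  obtain ⟨N₁, hN₁⟩ := hCau C₁
  obtain ⟨n₁, hn₁, hbad⟩ := hC₁ N₁
  -- the leading degree
  have hbad' : ∃ s ∈ msup (e n₁), deg ψ s < C₁ := by
    by_contra hcon
    push Not at hcon
    apply hbad
    rw [shift_iff]
    intro i j s hs
    exact hcon s (mem_msup.2 ⟨i, j, hs⟩)
  obtain ⟨s₁, hs₁, hs₁C⟩ := hbad'
  obtain ⟨g₀, hg₀, hmin⟩ := Finset.exists_min_image (msup (e n₁)) (deg ψ) ⟨s₁, hs₁⟩
  obtain ⟨β, j₀, hβ⟩ := mem_msup.1 hg₀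
  have hc₀C : deg ψ g₀ < C₁ := lt_of_le_of_lt (hmin s₁ hs₁) hs₁C
  have hsame : ∀ n ≥ N₁, ∀ h, deg ψ h < C₁ →
      (e n (Pi.single β 1) j₀).coeff h = (e n₁ (Pi.single β 1) j₀).coeff h := by
    intro n hn h hh
    by_contra hne
    have h1 := shift_iff.1 (hN₁ n hn n₁ hn₁) β j₀ h
    rw [LinearMap.sub_apply, Pi.sub_apply, MonoidAlgebra.coeff_sub, Finsupp.sub_apply] at h1
    have h2 := h1 (sub_ne_zero.2 hne)
    omega
  obtain ⟨Su, hSu⟩ : ∃ Su : Finset Γ, Su = (e n₁ (Pi.single β 1) j₀).coeff.support := ⟨_, rfl⟩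
  obtain ⟨Ce, hCe⟩ := hBd
  obtain ⟨γ, hγ⟩ : ∃ γ : ℕ, γ = Ce.natAbs + ∑ s ∈ msup D ∪ msup D', (deg ψ s).natAbs := ⟨_, rfl⟩
  have hγs : ∀ s ∈ msup D ∪ msup D', (deg ψ s).natAbs ≤ γ := by
    intro s hs
    rw [hγ]
    have := Finset.single_le_sum (f := fun s => (deg ψ s).natAbs) (fun _ _ => Nat.zero_le _) hs
    omega
  have hγC : Ce.natAbs ≤ γ := by omega
  obtain ⟨R₀, hR₀⟩ : ∃ R₀ : ℕ, R₀ = b * γ + b + 2 * γ * c + c + 4 * a * γ + 2 * a := ⟨_, rfl⟩
  obtain ⟨J, hJ⟩ : ∃ J : ℕ, J = 3 * γ + (deg ψ g₀).natAbs + 2 * Su.card * R₀ + 1 := ⟨_, rfl⟩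
  obtain ⟨N₂, hN₂⟩ := heD J
  obtain ⟨N₃, hN₃⟩ := hDe J
  obtain ⟨N₄, hN₄⟩ := hee J
  obtain ⟨n, hn⟩ : ∃ n, n = N₁ + N₂ + N₃ + N₄ := ⟨_, rfl⟩
  obtain ⟨t, ht'⟩ := hψ (Multiplicative.ofAdd 1)
  have ht : deg ψ t = 1 := by rw [deg, ht']; rfl
  obtain ⟨E, hEne, hE0, hup⟩ := upper hF ht D D' (e n) hex γ J (by omega)
    (by
      intro s hs
      have := hγs s (Finset.mem_union_left _ hs)
      omega)
    (by
      intro s hs
      have := hγs s (Finset.mem_union_right _ hs)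
      omega)
    (by
      rw [shift_iff]
      intro i j s hs
      have := shift_iff.1 (hCe n) i j s hs
      omega)
    (by
      rw [shift_iff]
      intro i j s hs
      have := hγs s (Finset.mem_union_right _ (mem_msup.2 ⟨i, j, hs⟩))
      omega)
    (hN₂ n (by omega)) (hN₃ n (by omega)) (hN₄ n (by omega))
  have hlow := lower ht (e n) β j₀ g₀ Su (deg ψ g₀) rfl
    (by
      rw [hsame n (by omega) g₀ hc₀C]
      exact hβ)
    (by
      intro h hh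
      by_cases hd : deg ψ h < C₁
      · rw [hsame n (by omega) h hd] at hh
        refine ⟨hmin h (mem_msup.2 ⟨β, j₀, hh⟩), fun _ => ?_⟩
        rw [hSu]
        exact Finsupp.mem_support_iff.2 hh
      · exact ⟨by omega, fun h1 => by omega⟩)
    E hE0 J (J - γ - (deg ψ g₀).natAbs) (J - γ) (by omega) (by omega)
  rw [← hR₀] at hup
  have h1 : (J - γ - (deg ψ g₀).natAbs) * E.card ≤ 2 * Su.card * (R₀ * E.card) :=
    hlow.trans (Nat.mul_le_mul_left _ hup)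
  rw [← mul_assoc] at h1
  have h2 := Nat.le_of_mul_le_mul_right h1 (Finset.card_pos.2 hEne)
  omega

end Vale.Agent.P260.H970
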